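import Vale.Agent.P229.Glob

open scoped ContDiff

theorem Vale.Agent.Results.P229.Disproof.result :
    ∃ g : EuclideanSpace ℝ (Fin 2) → Matrix (Fin 2) (Fin 2) ℝ,
      (∀ i j, ContDiff ℝ ∞ fun x => g x i j) ∧ (∀ x, (g x).PosDef) ∧
      ∀ U : Set (EuclideanSpace ℝ (Fin 2)), IsOpen U → 0 ∈ U →
        ∀ F : EuclideanSpace ℝ (Fin 2) → EuclideanSpace ℝ (Fin 3), ContDiffOn ℝ ∞ F U →
          ¬ ∀ x ∈ U, ∀ i j : Fin 2, inner ℝ (fderiv ℝ F x (EuclideanSpace.single i 1))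
            (fderiv ℝ F x (EuclideanSpace.single j 1)) = g x i j :=
  Vale.Agent.P229.main
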